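import Vale.Agent.P011N.Cl.LH.Her
import Vale.Agent.P011.E6O.Land1

/-!
The statements `HIStmt` and `LHStmt`.
-/

namespace Vale.Agent.P011N.Cl.LH

open Matrix Module Vale.Agent.P011 Vale.Agent.P011.E6O Vale.Agent.P011.E6I

/-- The fixed field of a group, with an involution. -/
theorem exists_star {F : Type} [Field F] [NumberField F] (Γ₁ : Subgroup (Gl F)) (s : Gl F)
    (hs : ∀ x, Fx Γ₁ x → Fx Γ₁ (s x) ∧ s (s x) = x) :
    ∃ (K : Type) (_ : Field K) (_ : NumberField K) (_ : StarRing K) (_ : Algebra K F),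
      (∀ x : F, Fx Γ₁ x ↔ x ∈ Set.range (algebraMap K F)) ∧ finrank K F = Nat.card Γ₁ ∧
        ∀ x : K, algebraMap K F (star x) = s (algebraMap K F x) := by
  have h : ∀ x : F, x ∈ IntermediateField.fixedField Γ₁ ↔ Fx Γ₁ x := fun x =>
    IntermediateField.mem_fixedField_iff Γ₁ x
  refine ⟨IntermediateField.fixedField Γ₁, inferInstance, inferInstance,
    { star := fun x => ⟨s x, (h _).mpr (hs _ ((h _).mp x.2)).1⟩
      star_involutive := fun x => Subtype.ext (hs _ ((h _).mp x.2)).2
      star_mul := fun x y => Subtype.ext ((map_mul s (x : F) y).trans (mul_comm _ _))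
      star_add := fun x y => Subtype.ext (map_add s (x : F) y) }, inferInstance,
    fun x => (h x).symm.trans ⟨fun hx => ⟨⟨x, hx⟩, rfl⟩, fun ⟨y, hy⟩ => hy ▸ y.2⟩,
    IntermediateField.finrank_fixedField_eq_card Γ₁, fun _ => rfl⟩

theorem hiStmt : HIStmt := by
  intro F _ _ Γ₁ s hs ⟨x0, hx0, hx1⟩ G hG hGs hw
  obtain ⟨K, _, _, _, _, hK, -, hst⟩ := exists_star Γ₁ s hs
  choose H hH using fun i j => (hK _).mp (hG i j)
  have hinj := (algebraMap K F).injective
  obtain ⟨v, hv, h⟩ := exists_iso (K := K) (H := Matrix.of H) (by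
      obtain ⟨y, rfl⟩ := (hK _).mp hx0
      exact ⟨y, fun h => hx1 (by rw [← hst, h])⟩) (by
      ext i j
      apply hinj
      rw [Matrix.conjTranspose_apply, hst, Matrix.of_apply, Matrix.of_apply, hH, hH]
      exact (congrFun (congrFun hGs j) i).symm) fun w0 hw0 => by
    let _ : Algebra K ℂ := w0.toAlgebra
    let w : F →ₐ[K] ℂ := IsAlgClosed.lift
    have h1 : ∀ y, w (algebraMap K F y) = w0 y := w.commutes
    have h2 := hw w fun x hx => by
      obtain ⟨y, rfl⟩ := (hK _).mp hx
      exact (congrArg w (hst y).symm).trans ((h1 _).trans ((hw0 y).trans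
        (congrArg star (h1 y).symm)))
    have h3 : G.map (w : F →+* ℂ) = (Matrix.of H).map w0 := by
      ext i j
      rw [Matrix.map_apply, Matrix.map_apply, Matrix.of_apply, ← hH]
      exact h1 _
    rwa [def_id, h3, ← def_id] at h2
  refine ⟨fun i => algebraMap K F (v i), fun h0 => hv (funext fun i => hinj ?_),
    fun i => (hK _).mpr ⟨_, rfl⟩, ?_⟩
  · exact (congrFun h0 i).trans (map_zero _).symm
  · have h1 := congrArg (algebraMap K F) h
    simp only [dotProduct, Matrix.mulVec, map_sum, map_mul, Matrix.of_apply, hH, Pi.star_apply,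
      hst, map_zero] at h1
    exact h1

section cyc

variable {F : Type} [Field F]

/-- The nonzero entries of `uu e`. -/
def cc (e : F) : Fin 3 → F := ![1, 1, e]

/-- The form is compatible with the cyclic structure. -/
def Tw (r s : F → F) (e t : F) (G : Matrix (Fin 3) (Fin 3) F) : Prop :=
  ∀ i j, cc e i * G (i + 1) (j + 1) * s (cc e j) = t * r (G i j)

theorem tw_of {r : F → F} {s : F →+* F} {e t : F} {G : Matrix (Fin 3) (Fin 3) F}
    (h : (uu e)ᵀ * G * (uu e).map s = t • G.map r) : Tw r s e t G := by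
  intro i j
  have h1 := congrFun (congrFun h i) j
  fin_cases i <;> fin_cases j <;>
    simpa [uu, cc, Matrix.mul_apply, Fin.sum_univ_three] using h1

theorem uu_comm {r : F → F} {e : F} {z : Matrix (Fin 3) (Fin 3) F}
    (h : ∀ i j, z (i + 1) (j + 1) * cc e j = cc e i * r (z i j)) :
    z * uu e = uu e * z.map r := by
  ext i j
  have h1 := h (i + 2) j
  fin_cases i <;> fin_cases j <;>
    simpa [uu, cc, Matrix.mul_apply, Fin.sum_univ_three] using h1

theorem cc_ne {e : F} (he : e ≠ 0) (i : Fin 3) : cc e i ≠ 0 := by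
  fin_cases i
  exacts [one_ne_zero, one_ne_zero, he]

theorem map_cc (r : F →+* F) (e : F) (i : Fin 3) : r (cc e i) = cc (r e) i := by
  fin_cases i
  exacts [map_one r, map_one r, rfl]

theorem prod_cc (e : F) (i : Fin 3) : cc e i * cc e (i + 1) * cc e (i + 1 + 1) = e := by
  fin_cases i <;> simp [cc]

theorem Tw.norm {r s : F →+* F} {e t : F} {G : Matrix (Fin 3) (Fin 3) F} (h : Tw r s e t G)
    (hr : ∀ x, r (r (r x)) = x) (hs : ∀ x, s (s x) = x) (hrs : ∀ x, r (s x) = s (r x))
    (he : r e = e) (hd : G.det ≠ 0) (hG : Gᵀ = G.map s) :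
    s t = t ∧ t * r t * r (r t) = e * s e := by
  obtain ⟨i, j, hij⟩ : ∃ i j, G i j ≠ 0 := by
    by_contra hc
    push Not at hc
    have : G = 0 := Matrix.ext hc
    rw [this, Matrix.det_zero] at hd
    exact hd rfl
  have hG' : ∀ i j, s (G i j) = G j i := fun i j => (congrFun (congrFun hG i) j).symm
  have h1 : ∀ i, r (cc e i) = cc e i := fun i => by rw [map_cc, he]
  have h2 : ∀ i, r (s (cc e i)) = s (cc e i) := fun i => by rw [hrs, h1]
  constructor
  · have k1 := h i j
    have k2 := congrArg s (h j i)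
    rw [map_mul, map_mul, map_mul, hs, hG', ← hrs, hG'] at k2
    apply mul_right_cancel₀ ((map_ne_zero r).mpr hij)
    linear_combination k1 - k2
  · have k1 := congrArg r (congrArg r (h i j))
    have k2 := congrArg r (h (i + 1) (j + 1))
    have k3 := h (i + 1 + 1) (j + 1 + 1)
    have e3 : ∀ i : Fin 3, i + 1 + 1 + 1 = i := by decide
    rw [e3, e3] at k3
    simp only [map_mul, h1, h2, hr] at k1 k2
    have p1 := prod_cc e i
    have p2 := congrArg s (prod_cc e j)
    rw [map_mul, map_mul] at p2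
    apply mul_right_cancel₀ hij
    rw [← p2]
    nth_rewrite 1 [← p1]
    linear_combination (-(t * r t)) * k1 - t * cc e i * s (cc e j) * k2 -
      cc e i * s (cc e j) * cc e (i + 1) * s (cc e (j + 1)) * k3

theorem exists_h90 {r s : F →+* F} (hr : ∀ x, r (r (r x)) = x) (hr1 : ∃ x, r x ≠ x)
    (hs : ∀ x, s (s x) = x) (hrs : ∀ x, r (s x) = s (r x)) {θ : F} (h0 : θ ≠ 0) (h1 : r θ = θ)
    (h2 : s θ = -θ) {a : F} (ha : a * r a * r (r a) = 1) (hsa : s a = a) :
    ∃ μ, μ ≠ 0 ∧ s μ = μ ∧ a * r μ = μ := by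
  obtain ⟨y, hy⟩ : ∃ y, y + a * r y + a * r a * r (r y) ≠ 0 := by
    by_contra hc
    push Not at hc
    obtain ⟨x, hx⟩ := hr1
    have k1 := hc 1
    have k2 := hc x
    have k3 := hc (x * x)
    simp only [map_one, map_mul] at k1 k3
    have hx2 : r (r x) ≠ x := fun h => hx (by have := congrArg r h; rw [hr] at this; exact this.symm)
    apply mul_ne_zero (sub_ne_zero.mpr hx) (sub_ne_zero.mpr hx2)
    linear_combination k3 - (r x + r (r x)) * k2 + r x * r (r x) * k1
  obtain ⟨m, hm⟩ : ∃ m, m = y + a * r y + a * r a * r (r y) := ⟨_, rfl⟩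
  have k1 : a * r m = m := by
    rw [hm]
    simp only [map_add, map_mul, hr]
    linear_combination y * ha
  rw [← hm] at hy
  have k2 := congrArg s k1
  rw [map_mul, hsa, ← hrs] at k2
  by_cases h3 : m + s m = 0
  · refine ⟨θ * m, mul_ne_zero h0 hy, ?_, ?_⟩
    · rw [map_mul, h2]
      linear_combination (-θ) * h3
    · rw [map_mul, h1]
      linear_combination θ * k1
  · refine ⟨m + s m, h3, by rw [map_add, hs, add_comm], ?_⟩
    rw [map_add]
    linear_combination k1 + k2

variable {K : Type} [Field K] [StarRing K] [Algebra K F] (S : Dat K F) {e t : F}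

theorem exists_el (hu : u0 F S.lam = uu e) (ht : t ≠ 0)
    (hΓ : ∀ i, cc e i * S.G (i + 1) * S.s (cc e i) = t * S.ρ (S.G i))
    {G : Matrix (Fin 3) (Fin 3) F} (hd : G.det ≠ 0) (hG : Gᵀ = G.map S.s)
    (h : Tw S.ρ S.s e t G) :
    ∃ g : S.D, star g = g ∧ g ≠ 0 ∧ S.f g = diagonal (fun i => (S.G i : F)⁻¹) * Gᵀ := by
  have hG' : ∀ i j, S.s (G i j) = G j i := fun i j => (congrFun (congrFun hG i) j).symm
  have hm : InD0 S.ρ S.lam (diagonal (fun i => (S.G i : F)⁻¹) * Gᵀ) := by
    rw [InD0, hu]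
    refine uu_comm fun i j => ?_
    rw [Matrix.diagonal_mul, Matrix.diagonal_mul, map_mul, map_inv₀, Matrix.transpose_apply,
      Matrix.transpose_apply]
    have k1 := h j i
    have k2 := hΓ i
    have n1 := (S.G (i + 1)).ne_zero
    have n2 : S.ρ (S.G i) ≠ 0 := (map_ne_zero _).mpr (S.G i).ne_zero
    field_simp
    apply mul_left_cancel₀ ht
    linear_combination (S.G (i + 1) * cc e i) * k1 - (G (j + 1) (i + 1) * cc e j) * k2
  refine ⟨S.el hm, S.f_injective ?_, fun h0 => ?_, rfl⟩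
  · rw [S.f_star, S.f_el]
    ext i j
    rw [S.dag_apply, Matrix.diagonal_mul, Matrix.diagonal_mul, map_mul, map_inv₀, S.sG,
      Matrix.transpose_apply, Matrix.transpose_apply, hG', Units.val_inv_eq_inv_val]
    have := (S.G j).ne_zero
    field_simp
  · have h1 := congrArg (fun x => (S.f x).det) h0
    simp only [S.f_el, map_zero] at h1
    rw [Matrix.det_zero, Matrix.det_mul, Matrix.det_transpose, Matrix.det_diagonal] at h1
    exact mul_ne_zero (Finset.prod_ne_zero_iff.mpr fun i _ => inv_ne_zero (S.G i).ne_zero) hd h1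

theorem dat_similar [NumberField K] (hK : ∃ x : K, star x ≠ x) (hu : u0 F S.lam = uu e)
    (ht : t ≠ 0) (hΓ : ∀ i, cc e i * S.G (i + 1) * S.s (cc e i) = t * S.ρ (S.G i))
    {G G' : Matrix (Fin 3) (Fin 3) F} (hd : G.det ≠ 0) (hd' : G'.det ≠ 0) (hG : Gᵀ = G.map S.s)
    (hG' : G'ᵀ = G'.map S.s) (h : Tw S.ρ S.s e t G) (h' : Tw S.ρ S.s e t G')
    (hw : ∀ w : F →+* ℂ, (∀ x, w (S.s x) = star (w x)) → (Def w G ↔ Def w G')) :
    ∃ (z : Matrix (Fin 3) (Fin 3) F) (μ : F), z.det ≠ 0 ∧ z * uu e = uu e * z.map S.ρ ∧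
      zᵀ * G * z.map S.s = μ • G' := by
  obtain ⟨g0, s0, n0, f0⟩ := exists_el S hu ht hΓ hd hG h
  obtain ⟨g, s1, n1, f1⟩ := exists_el S hu ht hΓ hd' hG' h'
  obtain ⟨μ, δ, -, -, hδ, hg, -⟩ := Dat.similar hK s1 s0 n1 n0 fun w hw' => by
    have hA := (S.rd w hw').hA
    have dA := ((Matrix.isUnit_iff_isUnit_det _).mp (S.rd w hw').unit).ne_zero
    have key : ∀ {G : Matrix (Fin 3) (Fin 3) F} {g : S.D}, G.det ≠ 0 → Gᵀ = G.map S.s →
        S.f g = diagonal (fun i => (S.G i : F)⁻¹) * Gᵀ →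
        ((S.rd w hw').f g * (S.rd w hw').A)ᴴ = (S.rd w hw').f g * (S.rd w hw').A ∧
        ((S.rd w hw').f g * (S.rd w hw').A).det ≠ 0 ∧
        (Def id ((S.rd w hw').f g * (S.rd w hw').A) ↔ Def w G) := by
      intro G g hd hG hf
      have e1 : (S.rd w hw').f g * (S.rd w hw').A =
          (S.rd w hw').A * (G.map w)ᵀ * (S.rd w hw').Aᴴ := by
        rw [hA]
        congr 1
        change (S.f g).map w = diagonal (fun i => (w (S.G i))⁻¹) * _
        rw [hf, Matrix.map_mul, Matrix.diagonal_map (map_zero w), Matrix.transpose_map]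
        simp only [map_inv₀]
      have e2 : (G.map w)ᵀᴴ = (G.map w)ᵀ := by
        ext i j
        change star (w (G i j)) = w (G j i)
        rw [← hw']
        exact congrArg w (congrFun (congrFun hG i) j).symm
      have e3 : (G.map w).det = w G.det := (w.map_det G).symm
      rw [e1]
      refine ⟨?_, ?_, by rw [def_cong dA, def_transpose, ← def_id]⟩
      · rw [Matrix.conjTranspose_mul, Matrix.conjTranspose_mul, e2,
          Matrix.conjTranspose_conjTranspose, Matrix.mul_assoc]
      · rw [det_cg, Matrix.det_transpose, e3]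
        exact mul_ne_zero (mul_ne_zero dA (star_ne_zero.mpr dA)) ((map_ne_zero w).mpr hd)
    obtain ⟨a1, a2, a3⟩ := key hd hG f0
    obtain ⟨b1, b2, b3⟩ := key hd' hG' f1
    exact cx_similar b1 a1 b2 a2 (by rw [a3, b3]; exact (hw w hw').symm)
  have hμ : algebraMap K F μ ≠ 0 := by
    rw [map_ne_zero]
    rintro rfl
    exact n1 (by rw [hg, zero_smul])
  refine ⟨S.f (star δ), (algebraMap K F μ)⁻¹, S.det_ne (star_ne_zero.mpr hδ), ?_, ?_⟩
  · rw [← hu]
    exact S.f_mem _
  obtain ⟨z, hz⟩ : ∃ z, S.f (star δ) = z := ⟨_, rfl⟩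
  have e1 : S.f δ = diagonal (fun i => (S.G i : F)⁻¹) * (z.map S.s)ᵀ *
      diagonal fun i => (S.G i : F) := by
    rw [← star_star δ, S.f_star, hz]
    ext i j
    rw [Matrix.mul_diagonal, Matrix.diagonal_mul, S.dag_apply, Units.val_inv_eq_inv_val]
    rfl
  have e2 : (diagonal fun i => (S.G i : F)) * diagonal (fun i => (S.G i : F)⁻¹) = 1 := by
    rw [Matrix.diagonal_mul_diagonal, ← Matrix.diagonal_one]
    congr 1
    funext i
    exact mul_inv_cancel₀ (S.G i).ne_zero
  have e3 := congrArg (fun x => (diagonal fun i => (S.G i : F)) * S.f x) hg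
  simp only [map_smul, map_mul] at e3
  rw [f0, f1, e1, hz, ← algebraMap_smul F μ, Matrix.mul_smul] at e3
  simp only [← Matrix.mul_assoc, e2, Matrix.one_mul] at e3
  rw [Matrix.mul_assoc _ (diagonal _) (diagonal _), e2, Matrix.mul_one] at e3
  have e4 := congrArg Matrix.transpose e3
  rw [Matrix.transpose_transpose, Matrix.transpose_smul, Matrix.transpose_mul, Matrix.transpose_mul,
    Matrix.transpose_transpose, Matrix.transpose_transpose] at e4
  rw [hz, e4, smul_smul, inv_mul_cancel₀ hμ, one_smul, Matrix.mul_assoc]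

end cyc

theorem lhStmt : LHStmt := by
  intro F _ _ r s e u hs1 hs2 hrs hc G G' hd hd' hG hG' ⟨t, ht⟩ ⟨t', ht'⟩ hw
  have hs : ∀ x, s (s x) = x := fun x => DFunLike.congr_fun hs2 x
  have hrs' : ∀ x, r (s x) = s (r x) := fun x => DFunLike.congr_fun hrs x
  obtain ⟨y, hy⟩ : ∃ y, s y ≠ y := by
    by_contra h
    push Not at h
    exact hs1 (AlgEquiv.ext h)
  rcases hc with ⟨rfl, rfl⟩ | ⟨hr1, hr3, he, hN, rfl⟩
  · let _ : StarRing F :=
      { star := s
        star_involutive := hs
        star_mul := fun x y => (map_mul s x y).trans (mul_comm _ _)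
        star_add := map_add s }
    have key : ∀ {G : Matrix (Fin 3) (Fin 3) F}, Gᵀ = G.map s → Gᴴ = G := by
      intro G hG
      ext i j
      exact (congrFun (congrFun hG j) i).symm
    obtain ⟨μ, hμ, P, hP⟩ := similar ⟨y, hy⟩ (key hG) (key hG') hd hd' hw
    refine ⟨Pᵀ, μ, ?_, ?_, hP⟩
    · rw [Matrix.det_transpose]
      refine det_ne_of_cg hP ?_
      rw [Matrix.det_smul]
      exact mul_ne_zero (pow_ne_zero _ hμ) hd'
    · rw [Matrix.mul_one, Matrix.one_mul]
      rfl
  have hr : ∀ x, r (r (r x)) = x := fun x => by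
    have := DFunLike.congr_fun hr3 x
    rwa [pow_three] at this
  have hr0 : ∃ x, r x ≠ x := by
    by_contra h
    push Not at h
    exact hr1 (AlgEquiv.ext h)
  have he0 : e ≠ 0 := fun h => hN 0 (by rw [h, zero_mul, zero_mul])
  have hfx : ∀ x, Fx (Subgroup.zpowers r) x ↔ r x = x := fun x =>
    ⟨fun h => h r (Subgroup.mem_zpowers r), fun h γ hγ =>
      (Subgroup.zpowers_le (H := MulAction.stabilizer (Gl F) x)).mpr h hγ⟩
  obtain ⟨K, _, _, _, _, hK, hrk, hst⟩ := exists_star (Subgroup.zpowers r) s fun x hx =>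
    ⟨(hfx _).mpr (by rw [hrs', (hfx _).mp hx]), hs x⟩
  have hrK : ∀ x, r (algebraMap K F x) = algebraMap K F x := fun x =>
    (hfx _).mp ((hK _).mpr ⟨x, rfl⟩)
  have tw := tw_of (s := (s : F →+* F)) ht
  have tw' := tw_of (s := (s : F →+* F)) ht'
  obtain ⟨st, nt⟩ := Tw.norm (r := (r : F →+* F)) tw hr hs hrs' he hd hG
  obtain ⟨st', nt'⟩ := Tw.norm (r := (r : F →+* F)) tw' hr hs hrs' he hd' hG'
  change s t = t at st
  change s t' = t' at st'
  change t * r t * r (r t) = e * s e at nt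
  change t' * r t' * r (r t') = e * s e at nt'
  have hse : s e ≠ 0 := (map_ne_zero s).mpr he0
  have t0 : t ≠ 0 := fun h => mul_ne_zero he0 hse (by rw [← nt, h, zero_mul, zero_mul])
  have t0' : t' ≠ 0 := fun h => mul_ne_zero he0 hse (by rw [← nt', h, zero_mul, zero_mul])
  obtain ⟨θ, θ0, θ1, θ2⟩ : ∃ θ : F, θ ≠ 0 ∧ r θ = θ ∧ s θ = -θ := by
    have h1 : y - s y ≠ 0 := sub_ne_zero.mpr hy.symm
    have h2 : s (y - s y) = -(y - s y) := by rw [map_sub, hs, neg_sub]
    refine ⟨(y - s y) * r (y - s y) * r (r (y - s y)), mul_ne_zero (mul_ne_zero h1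
      ((map_ne_zero r).mpr h1)) ((map_ne_zero r).mpr ((map_ne_zero r).mpr h1)), ?_, ?_⟩
    · rw [map_mul, map_mul, hr]
      ring
    · rw [map_mul, map_mul, ← hrs', ← hrs', ← hrs', h2, map_neg, map_neg]
      ring
  obtain ⟨μ, μ0, μ1, μ2⟩ := exists_h90 (r := (r : F →+* F)) (s := (s : F →+* F)) hr hr0 hs hrs'
    θ0 θ1 θ2 (a := t / t') (by
      change t / t' * r (t / t') * r (r (t / t')) = 1
      rw [map_div₀, map_div₀, div_mul_div_comm, div_mul_div_comm, nt, nt',
        div_self (mul_ne_zero he0 hse)]) (by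
      change s (t / t') = t / t'
      rw [map_div₀, st, st'])
  change s μ = μ at μ1
  change t / t' * r μ = μ at μ2
  rw [div_mul_eq_mul_div, div_eq_iff t0'] at μ2
  obtain ⟨e1, he1⟩ := (hK _).mp ((hfx _).mpr he)
  have he2 : e1 ≠ 0 := fun h => he0 (by rw [← he1, h, map_zero])
  have rt0 : r t ≠ 0 := (map_ne_zero r).mpr t0
  let S : Dat K F :=
    { ρ := AlgEquiv.ofRingEquiv (f := (r : F ≃+* F)) hrK
      s := s
      lam := (Units.mk0 e1 he2)⁻¹
      G := ![1, Units.mk0 t t0, Units.mk0 (t * r t) (mul_ne_zero t0 rt0)]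
      c := t
      h3 := by
        have : Fact (Nat.Prime 3) := ⟨Nat.prime_three⟩
        rw [hrk, Nat.card_zpowers, orderOf_eq_prime hr3 hr1]
      ρ1 := hr0
      ρ3 := hr
      fix := fun x hx => (hK _).mp ((hfx _).mpr hx)
      hN := fun x hx => hN x⁻¹ (by
        change x * r x * r (r x) = _ at hx
        rw [Units.val_inv_eq_inv_val, map_inv₀, Units.val_mk0, he1] at hx
        rw [map_inv₀, map_inv₀, ← mul_inv, ← mul_inv, hx, inv_inv])
      ss := hs
      sρ := fun x => (hrs' x).symm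
      sK := fun x => (hst x).symm
      sG := fun i => by
        fin_cases i
        · exact map_one s
        · exact st
        · change s (t * r t) = t * r t
          rw [map_mul, ← hrs', st]
      G1 := by
        change t = t * r 1
        rw [map_one, mul_one]
      G2 := rfl
      G0 := by
        change 1 = _ * (t * r (t * r t))
        rw [map_mul, hst, Units.val_inv_eq_inv_val, map_inv₀, Units.val_mk0, he1, map_inv₀,
          map_mul, ← mul_assoc t, nt]
        field_simp }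
  obtain ⟨z, ν, h1, h2, h3⟩ := dat_similar S (e := e) (t := t) (G := G) (G' := μ • G') (by
      obtain ⟨θ', rfl⟩ := (hK _).mp ((hfx _).mpr θ1)
      refine ⟨θ', fun h => θ0 ?_⟩
      rw [← hst, h] at θ2
      exact (add_self_eq_zero.mp (add_eq_zero_iff_eq_neg.mpr θ2))) (by
      have h1 : (((Vale.Agent.P011.D4.up F S.lam)⁻¹ : Fˣ) : F) = e := by
        rw [Units.val_inv_eq_inv_val]
        change (algebraMap K F ((Units.mk0 e1 he2)⁻¹ : Kˣ))⁻¹ = e
        rw [Units.val_inv_eq_inv_val, map_inv₀, Units.val_mk0, he1, inv_inv]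
      rw [u0, h1, uu]) t0 (fun i => by
      fin_cases i
      · change 1 * t * s 1 = t * r 1
        rw [map_one, map_one, one_mul]
      · change 1 * (t * r t) * s 1 = t * r t
        rw [map_one, one_mul, mul_one]
      · change e * 1 * s e = t * r (t * r t)
        rw [map_mul, ← mul_assoc, nt, mul_one]) hd (by
      rw [Matrix.det_smul]
      exact mul_ne_zero (pow_ne_zero _ μ0) hd') hG (by
      ext i j
      change μ * G' j i = s (μ * G' i j)
      rw [map_mul, μ1]
      exact congrArg _ (congrFun (congrFun hG' i) j)) tw (fun i j => by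
      have h1 := tw' i j
      change cc e i * G' (i + 1) (j + 1) * s (cc e j) = t' * r (G' i j) at h1
      change cc e i * (μ * G' (i + 1) (j + 1)) * s (cc e j) = t * r (μ * G' i j)
      rw [map_mul]
      linear_combination μ * h1 - r (G' i j) * μ2) fun w hw' => by
    have e : (μ • G').map w = w μ • G'.map w := by
      ext i j
      exact map_mul w _ _
    rw [def_id w (μ • G'), e, def_smul ((map_ne_zero w).mpr μ0), ← def_id]
    exact hw w hw'
  exact ⟨z, ν * μ, h1, h2, by rw [mul_smul]; exact h3⟩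

end Vale.Agent.P011N.Cl.LH
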