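import Vale.Agent.P011N.Cl.Defs2
import Vale.Agent.P011.RP.Count

/-!
Definite hermitian matrices of size three over the complex numbers.
-/

namespace Vale.Agent.P011N.Cl.LH

open Matrix

theorem def_id {F : Type} [Field F] (w : F → ℂ) (G : Matrix (Fin 3) (Fin 3) F) :
    Def w G ↔ Def id (G.map w) := by
  unfold Def
  rw [Matrix.map_id]

variable {G P : Matrix (Fin 3) (Fin 3) ℂ}

theorem def_iff : Def id G ↔ ∀ v : Fin 3 → ℂ, v ≠ 0 → v ⬝ᵥ (G *ᵥ star v) ≠ 0 := by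
  unfold Def
  rw [Matrix.map_id]

theorem def_cong (hP : P.det ≠ 0) : Def id (P * G * Pᴴ) ↔ Def id G := by
  have key : ∀ v : Fin 3 → ℂ, v ⬝ᵥ ((P * G * Pᴴ) *ᵥ star v) =
      (v ᵥ* P) ⬝ᵥ (G *ᵥ star (v ᵥ* P)) := by
    intro v
    rw [Matrix.star_vecMul, ← Matrix.dotProduct_mulVec, Matrix.mulVec_mulVec,
      Matrix.mulVec_mulVec]
  rw [def_iff, def_iff]
  constructor
  · intro h u hu
    have e : (u ᵥ* P⁻¹) ᵥ* P = u := by
      rw [Matrix.vecMul_vecMul, Matrix.nonsing_inv_mul _ (isUnit_iff_ne_zero.mpr hP),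
        Matrix.vecMul_one]
    have h1 := h (u ᵥ* P⁻¹) fun h0 => hu (by rw [← e, h0, Matrix.zero_vecMul])
    rwa [key, e] at h1
  · intro h v hv
    rw [key]
    exact h _ fun h0 => hv (Matrix.eq_zero_of_vecMul_eq_zero hP h0)

theorem def_smul {c : ℂ} (hc : c ≠ 0) : Def id (c • G) ↔ Def id G := by
  rw [def_iff, def_iff]
  refine forall_congr' fun v => forall_congr' fun _ => ?_
  rw [Matrix.smul_mulVec, dotProduct_smul, smul_eq_mul, mul_ne_zero_iff_left hc]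

theorem def_transpose_of (h : Def id G) : Def id Gᵀ := by
  rw [def_iff] at h ⊢
  intro v hv
  have h1 := h (star v) (star_ne_zero.mpr hv)
  rw [star_star] at h1
  rwa [Matrix.mulVec_transpose, dotProduct_comm, ← Matrix.dotProduct_mulVec]

theorem def_transpose : Def id Gᵀ ↔ Def id G :=
  ⟨fun h => by simpa using def_transpose_of h, def_transpose_of⟩

theorem diag_val (γ : Fin 3 → ℝ) (v : Fin 3 → ℂ) :
    v ⬝ᵥ (Matrix.diagonal (fun i => (γ i : ℂ)) *ᵥ star v) =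
      ((γ 0 * ‖v 0‖ ^ 2 + γ 1 * ‖v 1‖ ^ 2 + γ 2 * ‖v 2‖ ^ 2 : ℝ) : ℂ) := by
  have h : ∀ z : ℂ, z * star z = ((‖z‖ : ℂ)) ^ 2 := fun z => Complex.mul_conj' z
  simp only [dotProduct, Matrix.mulVec_diagonal, Fin.sum_univ_three, Pi.star_apply]
  push_cast
  rw [← h, ← h, ← h]
  ring

theorem not_def {γ : Fin 3 → ℝ} {i j : Fin 3} (h : γ i * γ j < 0) :
    ¬ Def id (Matrix.diagonal fun i => (γ i : ℂ)) := by
  rw [def_iff]
  intro hd
  have hij : i ≠ j := by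
    rintro rfl
    exact absurd h (not_lt.mpr (mul_self_nonneg _))
  have hj : γ j ≠ 0 := by
    rintro h0
    rw [h0, mul_zero] at h
    exact lt_irrefl _ h
  let v : Fin 3 → ℂ := Pi.single i ((γ j : ℝ) : ℂ) + Pi.single j ((√(-(γ i * γ j)) : ℝ) : ℂ)
  have hi0 : v i = ((γ j : ℝ) : ℂ) := by
    simp [v, Pi.single_eq_of_ne hij]
  have hj0 : v j = ((√(-(γ i * γ j)) : ℝ) : ℂ) := by
    simp [v, Pi.single_eq_of_ne hij.symm]
  have hk0 : ∀ k, k ≠ i → k ≠ j → v k = 0 := by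
    intro k h1 h2
    simp [v, Pi.single_eq_of_ne h1, Pi.single_eq_of_ne h2]
  have e1 : ‖v i‖ ^ 2 = γ j ^ 2 := by rw [hi0, Complex.norm_real, Real.norm_eq_abs, sq_abs]
  have e2 : ‖v j‖ ^ 2 = -(γ i * γ j) := by
    rw [hj0, Complex.norm_real, Real.norm_eq_abs, sq_abs, Real.sq_sqrt (by linarith)]
  have e3 : ∀ k, k ≠ i → k ≠ j → ‖v k‖ ^ 2 = 0 := by
    intro k h1 h2
    rw [hk0 k h1 h2]
    simp
  refine hd v (fun h0 => hj ?_) ?_
  · have := congrFun h0 i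
    rw [hi0] at this
    exact Complex.ofReal_eq_zero.mp this
  · rw [diag_val, Complex.ofReal_eq_zero]
    have e4 : ∑ k, γ k * ‖v k‖ ^ 2 = 0 := by
      rw [Finset.sum_eq_add_of_mem i j (Finset.mem_univ _) (Finset.mem_univ _) hij
        fun k _ hk => by rw [e3 k hk.1 hk.2, mul_zero], e1, e2]
      ring
    rwa [Fin.sum_univ_three] at e4

theorem def_diag {γ : Fin 3 → ℝ} (hγ : ∀ i, γ i ≠ 0) :
    Def id (Matrix.diagonal fun i => (γ i : ℂ)) ↔ 0 < γ 0 * γ 1 ∧ 0 < γ 1 * γ 2 := by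
  constructor
  · intro h
    exact ⟨lt_of_le_of_ne (not_lt.mp fun h1 => not_def h1 h) (mul_ne_zero (hγ 0) (hγ 1)).symm,
      lt_of_le_of_ne (not_lt.mp fun h1 => not_def h1 h) (mul_ne_zero (hγ 1) (hγ 2)).symm⟩
  · rintro ⟨h1, h2⟩
    rw [def_iff]
    intro v hv h0
    rw [diag_val, Complex.ofReal_eq_zero] at h0
    have h3 : 0 < γ 1 * γ 1 := mul_self_pos.mpr (hγ 1)
    have a0 := sq_nonneg ‖v 0‖
    have a1 := sq_nonneg ‖v 1‖
    have a2 := sq_nonneg ‖v 2‖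
    have b0 := mul_nonneg h1.le a0
    have b1 := mul_nonneg h3.le a1
    have b2 := mul_nonneg h2.le a2
    have e : γ 0 * γ 1 * ‖v 0‖ ^ 2 + γ 1 * γ 1 * ‖v 1‖ ^ 2 + γ 1 * γ 2 * ‖v 2‖ ^ 2 = 0 := by
      linear_combination γ 1 * h0
    have key : ∀ {c : ℝ} {z : ℂ}, 0 < c → c * ‖z‖ ^ 2 = 0 → z = 0 := fun hc hz =>
      norm_eq_zero.mp (pow_eq_zero_iff two_ne_zero |>.mp ((mul_eq_zero.mp hz).resolve_left hc.ne'))
    have z0 : v 0 = 0 := key h1 (by linarith)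
    have z1 : v 1 = 0 := key h3 (by linarith)
    have z2 : v 2 = 0 := key h2 (by linarith)
    apply hv
    funext i
    fin_cases i
    exacts [z0, z1, z2]

theorem signs : ∀ η η' : Fin 3 → ℤˣ,
    ((η 0 = η 1 ∧ η 1 = η 2) ↔ (η' 0 = η' 1 ∧ η' 1 = η' 2)) →
      ∃ (ε : ℤˣ) (π : Equiv.Perm (Fin 3)), ∀ i, η i = ε * η' (π i) := by
  decide

theorem def_sign (η : Fin 3 → ℤˣ) :
    Def id (Matrix.diagonal fun i => ((((η i : ℤˣ) : ℤ) : ℝ) : ℂ)) ↔ η 0 = η 1 ∧ η 1 = η 2 := by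
  have key : ∀ a b : ℤˣ, 0 < ((a : ℤ) : ℝ) * ((b : ℤ) : ℝ) ↔ a = b := by
    intro a b
    rcases Int.units_eq_one_or a with rfl | rfl <;> rcases Int.units_eq_one_or b with rfl | rfl <;>
      simp
  rw [def_diag fun i => Int.cast_ne_zero.mpr (η i).ne_zero, key, key]

/-- Two invertible hermitian matrices, both definite or both indefinite, are similar. -/
theorem cx_similar {H H' : Matrix (Fin 3) (Fin 3) ℂ} (hH : Hᴴ = H) (hH' : H'ᴴ = H')
    (hd : H.det ≠ 0) (hd' : H'.det ≠ 0) (h : Def id H ↔ Def id H') :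
    ∃ (ε : ℝ) (Q : Matrix (Fin 3) (Fin 3) ℂ), ε ≠ 0 ∧ IsUnit Q ∧ Q * ((ε : ℂ) • H') * Qᴴ = H := by
  obtain ⟨S, η, hS, e⟩ := Vale.Agent.P011.RP.exists_sign_diag (G := H) hH
    ((Matrix.isUnit_iff_isUnit_det _).mpr (isUnit_iff_ne_zero.mpr hd))
  obtain ⟨S', η', hS', e'⟩ := Vale.Agent.P011.RP.exists_sign_diag (G := H') hH'
    ((Matrix.isUnit_iff_isUnit_det _).mpr (isUnit_iff_ne_zero.mpr hd'))
  have dS := (Matrix.isUnit_iff_isUnit_det _).mp hS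
  have dS' := (Matrix.isUnit_iff_isUnit_det _).mp hS'
  rw [← def_cong dS.ne_zero, ← def_cong (G := H') dS'.ne_zero, e, e', def_sign, def_sign] at h
  obtain ⟨ε, π, hπ⟩ := signs η η' h
  have h1 : S'.submatrix π id * ((((ε : ℤ) : ℝ) : ℂ) • H') * (S'.submatrix π id)ᴴ =
      S * H * Sᴴ := by
    have h2 : S'.submatrix π id * H' * (S'.submatrix π id)ᴴ = (S' * H' * S'ᴴ).submatrix π π := by
      ext a b
      simp [Matrix.mul_apply, Matrix.submatrix_apply]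
    rw [Matrix.mul_smul, Matrix.smul_mul, h2, e, e', Matrix.submatrix_diagonal_equiv,
      ← Matrix.diagonal_smul]
    congr 1
    funext i
    rw [hπ i]
    simp
  refine ⟨((ε : ℤ) : ℝ), S⁻¹ * S'.submatrix π id, Int.cast_ne_zero.mpr ε.ne_zero, ?_, ?_⟩
  · refine (Matrix.isUnit_nonsing_inv_iff.mpr hS).mul ?_
    rw [Matrix.isUnit_iff_isUnit_det, Matrix.det_permute]
    exact (isUnit_iff_ne_zero.mpr (Int.cast_ne_zero.mpr (Equiv.Perm.sign π).ne_zero)).mul dS'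
  · have h3 : Sᴴ * S⁻¹ᴴ = 1 := by
      rw [← Matrix.conjTranspose_mul, Matrix.nonsing_inv_mul _ dS, Matrix.conjTranspose_one]
    calc S⁻¹ * S'.submatrix π id * ((((ε : ℤ) : ℝ) : ℂ) • H') * (S⁻¹ * S'.submatrix π id)ᴴ
        = S⁻¹ * (S'.submatrix π id * ((((ε : ℤ) : ℝ) : ℂ) • H') * (S'.submatrix π id)ᴴ) *
          S⁻¹ᴴ := by
          rw [Matrix.conjTranspose_mul]
          simp only [Matrix.mul_assoc]
      _ = (S⁻¹ * S) * H * (Sᴴ * S⁻¹ᴴ) := by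
          rw [h1]
          simp only [Matrix.mul_assoc]
      _ = H := by rw [h3, Matrix.nonsing_inv_mul _ dS, Matrix.one_mul, Matrix.mul_one]

end Vale.Agent.P011N.Cl.LH
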