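import Vale.Agent.P011N.Cl.LH.Cx
import Vale.Agent.P011.Even.DiagPair
import Vale.Agent.P011.RP.Dense
import Vale.Agent.P011.Arith.Landherr

/-!
Ternary hermitian forms over number fields.
-/

namespace Vale.Agent.P011N.Cl.LH

open Matrix Module Vale.Agent.P011 Vale.Agent.P011S

section field

variable {K : Type} [Field K] [StarRing K] {H H' H'' : Matrix (Fin 3) (Fin 3) K}

/-- The embedding is compatible with the involutions. -/
def Cp (w : K →+* ℂ) : Prop := ∀ x, w (star x) = star (w x)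

/-- The second matrix is a Gram matrix for the first one. -/
def Cg (H H' : Matrix (Fin 3) (Fin 3) K) : Prop := ∃ P : Matrix (Fin 3) (Fin 3) K, P * H * Pᴴ = H'

theorem Cg.trans (h : Cg H H') (h' : Cg H' H'') : Cg H H'' := by
  obtain ⟨P, rfl⟩ := h
  obtain ⟨Q, rfl⟩ := h'
  exact ⟨Q * P, by rw [Matrix.conjTranspose_mul]; simp only [Matrix.mul_assoc]⟩

theorem det_cg (P H : Matrix (Fin 3) (Fin 3) K) :
    (P * H * Pᴴ).det = P.det * star P.det * H.det := by
  rw [Matrix.det_mul, Matrix.det_mul, Matrix.det_conjTranspose]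
  ring

theorem det_ne_of_cg {P : Matrix (Fin 3) (Fin 3) K} (h : P * H * Pᴴ = H') (hd : H'.det ≠ 0) :
    P.det ≠ 0 := by
  intro h0
  rw [← h, det_cg, h0, zero_mul, zero_mul] at hd
  exact hd rfl

theorem Cg.symm (h : Cg H H') (hd : H'.det ≠ 0) : Cg H' H := by
  obtain ⟨P, h⟩ := h
  have hP := isUnit_iff_ne_zero.mpr (det_ne_of_cg h hd)
  have h3 : Pᴴ * P⁻¹ᴴ = 1 := by
    rw [← Matrix.conjTranspose_mul, Matrix.nonsing_inv_mul _ hP, Matrix.conjTranspose_one]
  refine ⟨P⁻¹, ?_⟩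
  calc P⁻¹ * H' * P⁻¹ᴴ = (P⁻¹ * P) * H * (Pᴴ * P⁻¹ᴴ) := by
        rw [← h]
        simp only [Matrix.mul_assoc]
    _ = H := by rw [h3, Matrix.nonsing_inv_mul _ hP, Matrix.one_mul, Matrix.mul_one]

theorem Cg.smul (h : Cg H H') (c : K) : Cg (c • H) (c • H') := by
  obtain ⟨P, rfl⟩ := h
  exact ⟨P, by rw [Matrix.mul_smul, Matrix.smul_mul]⟩

theorem Cp.map_ct {w : K →+* ℂ} (hw : Cp w) (P : Matrix (Fin 3) (Fin 3) K) :
    Pᴴ.map w = (P.map w)ᴴ := by
  ext i j
  exact hw _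

theorem Cg.def_iff (h : Cg H H') (hd : H'.det ≠ 0) {w : K →+* ℂ} (hw : Cp w) :
    Def w H' ↔ Def w H := by
  obtain ⟨P, h⟩ := h
  have hP : (P.map w).det ≠ 0 := by
    have e : (P.map w).det = w P.det := (w.map_det P).symm
    rw [e]
    exact (map_ne_zero w).mpr (det_ne_of_cg h hd)
  rw [def_id, def_id w H, ← h, Matrix.map_mul, Matrix.map_mul, hw.map_ct, def_cong hP]

omit [StarRing K] in
theorem def_smul' {c : K} (hc : c ≠ 0) (w : K →+* ℂ) : Def w (c • H) ↔ Def w H := by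
  have e : (c • H).map w = w c • H.map w := by
    ext i j
    exact map_mul w _ _
  rw [def_id, def_id w H, e, def_smul ((map_ne_zero w).mpr hc)]

theorem Cp.re {w : K →+* ℂ} (hw : Cp w) {a : K} (ha : star a = a) : ((w a).re : ℂ) = w a :=
  Complex.conj_eq_iff_re.mp (by have := hw a; rw [ha] at this; exact this.symm)

theorem Cp.re_mul {w : K →+* ℂ} (hw : Cp w) {a : K} (ha : star a = a) (b : K) :
    (w (a * b)).re = (w a).re * (w b).re := by
  rw [map_mul, ← hw.re ha, Complex.re_ofReal_mul, Complex.ofReal_re]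

theorem Cp.re_ne {w : K →+* ℂ} (hw : Cp w) {a : K} (ha : star a = a) (h0 : a ≠ 0) :
    (w a).re ≠ 0 := by
  intro h
  have h1 := hw.re ha
  rw [h, Complex.ofReal_zero] at h1
  exact h0 ((map_eq_zero w).mp h1.symm)

theorem Cp.norm_pos {w : K →+* ℂ} (hw : Cp w) {m : K} (h0 : m ≠ 0) : 0 < (w (m * star m)).re := by
  rw [map_mul, hw, Complex.star_def, Complex.mul_conj, Complex.ofReal_re]
  exact Complex.normSq_pos.mpr ((map_ne_zero w).mpr h0)

theorem Cp.def_diag {w : K →+* ℂ} (hw : Cp w) {g : Fin 3 → K} (hg : ∀ i, star (g i) = g i)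
    (h0 : ∀ i, g i ≠ 0) : Def w (diagonal g) ↔
      0 < (w (g 0)).re * (w (g 1)).re ∧ 0 < (w (g 1)).re * (w (g 2)).re := by
  have e : (diagonal g).map w = diagonal fun i => (((w (g i)).re : ℝ) : ℂ) := by
    rw [Matrix.diagonal_map (map_zero w)]
    congr 1
    funext i
    exact (hw.re (hg i)).symm
  rw [def_id, e, LH.def_diag fun i => hw.re_ne (hg i) (h0 i)]

theorem cg_perm (g : Fin 3 → K) (π : Equiv.Perm (Fin 3)) : Cg (diagonal g) (diagonal (g ∘ π)) := by
  refine ⟨(1 : Matrix (Fin 3) (Fin 3) K).submatrix π id, ?_⟩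
  have h2 : (1 : Matrix (Fin 3) (Fin 3) K).submatrix π id * diagonal g *
      ((1 : Matrix (Fin 3) (Fin 3) K).submatrix π id)ᴴ =
      ((1 : Matrix (Fin 3) (Fin 3) K) * diagonal g * (1 : Matrix (Fin 3) (Fin 3) K)ᴴ).submatrix
        π π := by
    ext a b
    rfl
  rw [h2, Matrix.conjTranspose_one, Matrix.one_mul, Matrix.mul_one,
    Matrix.submatrix_diagonal_equiv]

theorem cg_three {g : Fin 3 → K} (hg : ∀ i, star (g i) = g i) (x : Fin 3 → K) {p a : K}
    (hp : g 0 * x 0 * star (x 0) + g 1 * x 1 * star (x 1) = p)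
    (ha : p + g 2 * x 2 * star (x 2) = a) :
    Cg (diagonal g) (diagonal ![a, g 0 * g 1 * p, g 2 * p * a]) := by
  have sp : star p = p := by
    rw [← hp]
    simp only [star_add, star_mul', star_star, hg]
    ring
  refine ⟨!![x 0, x 1, x 2; -(g 1 * star (x 1)), g 0 * star (x 0), 0;
    g 2 * star (x 2) * x 0, g 2 * star (x 2) * x 1, -p], ?_⟩
  ext i j
  rw [Matrix.mul_apply]
  simp only [Matrix.mul_diagonal, Matrix.conjTranspose_apply, Fin.sum_univ_three]
  fin_cases i <;> fin_cases j <;> simp [hg, sp, -mul_eq_zero] <;> clear sp <;> subst ha hp <;> ring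

theorem cg_two {a b c y z e t : K} (hb : star b = b) (hc : star c = c)
    (h : b * y * star y + c * z * star z = e) :
    Cg (diagonal ![a, b, c]) (diagonal ![a, e, t * star t * (b * c * e)]) := by
  refine ⟨!![1, 0, 0; 0, y, z; 0, -(t * c * star z), t * b * star y], ?_⟩
  ext i j
  rw [Matrix.mul_apply]
  simp only [Matrix.mul_diagonal, Matrix.conjTranspose_apply, Fin.sum_univ_three]
  fin_cases i <;> fin_cases j <;> simp [hb, hc, -mul_eq_zero] <;> subst h <;> ring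

/-- A represented element is an entry of a diagonal form. -/
theorem cg_first [CharZero K] {g : Fin 3 → K} (hg : ∀ i, star (g i) = g i) (h0 : ∀ i, g i ≠ 0)
    {x : Fin 3 → K} {a : K} (ha : ∑ i, g i * x i * star (x i) = a) (ha0 : a ≠ 0) :
    ∃ b c, star b = b ∧ star c = c ∧ b ≠ 0 ∧ c ≠ 0 ∧ Cg (diagonal g) (diagonal ![a, b, c]) := by
  have sn : ∀ i, star (g i * x i * star (x i)) = g i * x i * star (x i) := fun i => by
    simp only [star_mul', star_star, hg]
    ring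
  have sa : star a = a := by
    rw [← ha, star_sum]
    exact Finset.sum_congr rfl fun i _ => sn i
  obtain ⟨π, hπ⟩ : ∃ π : Equiv.Perm (Fin 3),
      g (π 0) * x (π 0) * star (x (π 0)) + g (π 1) * x (π 1) * star (x (π 1)) ≠ 0 := by
    by_contra hc
    push Not at hc
    have h1 := hc 1
    have h2 := hc (Equiv.swap 0 2)
    have h3 := hc (Equiv.swap 1 2)
    have e1 : Equiv.swap (0 : Fin 3) 2 0 = 2 := by decide
    have e2 : Equiv.swap (0 : Fin 3) 2 1 = 1 := by decide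
    have e3 : Equiv.swap (1 : Fin 3) 2 0 = 0 := by decide
    have e4 : Equiv.swap (1 : Fin 3) 2 1 = 2 := by decide
    rw [e1, e2] at h2
    rw [e3, e4] at h3
    rw [Equiv.Perm.one_apply, Equiv.Perm.one_apply] at h1
    rw [Fin.sum_univ_three] at ha
    apply ha0
    have : 2 * a = 0 := by linear_combination h1 + h2 + h3 - 2 * ha
    exact (mul_eq_zero.mp this).resolve_left two_ne_zero
  obtain ⟨p, hp⟩ : ∃ p, g (π 0) * x (π 0) * star (x (π 0)) +
    g (π 1) * x (π 1) * star (x (π 1)) = p := ⟨_, rfl⟩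
  have sp : star p = p := by rw [← hp, star_add, sn, sn]
  rw [hp] at hπ
  refine ⟨g (π 0) * g (π 1) * p, g (π 2) * p * a, by rw [star_mul', star_mul', hg, hg, sp],
    by rw [star_mul', star_mul', hg, sp, sa], mul_ne_zero (mul_ne_zero (h0 _) (h0 _)) hπ,
    mul_ne_zero (mul_ne_zero (h0 _) hπ) ha0, (cg_perm g π).trans
      (cg_three (g := g ∘ π) (fun i => hg _) (x ∘ π) hp ?_)⟩
  rw [← ha, ← hp, ← Equiv.sum_comp π, Fin.sum_univ_three]
  rfl

end field

section number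

variable {K : Type} [Field K] [NumberField K] [StarRing K]

omit [NumberField K] in
theorem exists_theta (hK : ∃ x : K, star x ≠ x) : ∃ θ : K, θ ≠ 0 ∧ star θ = -θ := by
  obtain ⟨x, hx⟩ := hK
  exact ⟨x - star x, sub_ne_zero.mpr hx.symm, by rw [star_sub, star_star, neg_sub]⟩

theorem exists_diag (hK : ∃ x : K, star x ≠ x) {H : Matrix (Fin 3) (Fin 3) K} (hH : Hᴴ = H)
    (hd : H.det ≠ 0) :
    ∃ g : Fin 3 → K, (∀ i, star (g i) = g i) ∧ (∀ i, g i ≠ 0) ∧ Cg H (diagonal g) := by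
  obtain ⟨θ, h0, hθ⟩ := exists_theta hK
  obtain ⟨P, δ, -, h⟩ := Even.exists_diag (F := FK K) (d := sqK hθ)
    ⟨fun x hx => ⟨(⟨x, hx⟩ : fixK K), rfl⟩, star_fixK, θ, h0, hθ, by rw [coe_sqK, sq]⟩ H hH hd
  exact ⟨_, fun i => star_fixK _, fun i => (map_ne_zero _).mpr (δ i).ne_zero, P, h⟩

/-- Indefinite diagonal forms of rank at least three are isotropic. -/
theorem iso_diag (hK : ∃ x : K, star x ≠ x) {ι : Type} [Fintype ι] (hι : 3 ≤ Fintype.card ι)
    {g : ι → K} (hg : ∀ i, star (g i) = g i)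
    (hw : ∀ w : K →+* ℂ, Cp w → ∃ i j, (w (g i)).re * (w (g j)).re < 0) :
    ∃ x : ι → K, x ≠ 0 ∧ ∑ i, g i * x i * star (x i) = 0 := by
  classical
  obtain ⟨θ, h0, hθ⟩ := exists_theta hK
  have hd : sqK hθ ≠ 0 := fun h => mul_ne_zero h0 h0 (by rw [← coe_sqK hθ, h, map_zero])
  have hQ : Arith.Lan.Quad (Units.mk0 _ hd) θ :=
    ⟨hθ, by rw [sq]; exact (coe_sqK hθ).symm, fun x hx => ⟨(⟨x, hx⟩ : fixK K), rfl⟩, star_fixK⟩
  have hb : Arith.Lan.Herm fun x y : ι → K => ∑ i, g i * x i * star (y i) :=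
    { add_left := fun x y z => by
        simp only [Pi.add_apply, mul_add, add_mul, Finset.sum_add_distrib]
      smul_left := fun c x y => by
        rw [Finset.mul_sum]
        refine Finset.sum_congr rfl fun i _ => ?_
        rw [Pi.smul_apply, smul_eq_mul]
        ring
      symm := fun x y => by
        rw [star_sum]
        refine Finset.sum_congr rfl fun i _ => ?_
        rw [star_mul', star_mul', star_star, hg]
        ring }
  obtain ⟨q, hq⟩ := Arith.Lan.q_of hQ hb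
  have key : ∀ φ : FK K →+* ℝ, φ (sqK hθ) < 0 → ∃ x y, 0 < φ (q x) ∧ φ (q y) < 0 := by
    intro φ hφ
    obtain ⟨i, j, hij⟩ := hw (RP.emb h0 hθ φ hφ) (RP.emb_star h0 hθ φ hφ)
    have h1 : ∀ i, (RP.emb h0 hθ φ hφ (g i)).re = φ (q (Pi.single i 1)) := by
      intro i
      have h2 := hq (Pi.single i 1)
      rw [Finset.sum_eq_single i (fun k _ hk => by rw [Pi.single_eq_of_ne hk]; simp)
        fun h => absurd (Finset.mem_univ _) h, Pi.single_eq_same, star_one, mul_one,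
        mul_one] at h2
      have h3 := RP.emb_mk h0 hθ φ hφ (q (Pi.single i 1)) 0
      rw [map_zero, zero_mul, add_zero, map_zero, Complex.ofReal_zero, zero_mul, add_zero,
        h2] at h3
      rw [h3, Complex.ofReal_re]
    rw [h1, h1] at hij
    rcases mul_neg_iff.mp hij with h | h
    · exact ⟨_, _, h.1, h.2⟩
    · exact ⟨_, _, h.2, h.1⟩
  obtain ⟨x, hx, hx0⟩ := Arith.Lan.exists_isotropic hQ hb hq
    (by rwa [Module.finrank_fintype_fun_eq_card])
    (fun φ hφ => let ⟨x, _, h, _⟩ := key φ hφ; ⟨x, h⟩)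
    (fun φ hφ => let ⟨_, y, _, h⟩ := key φ hφ; ⟨y, h⟩)
  exact ⟨x, hx, by rw [← hq x, hx0, map_zero]⟩

/-- Representation by diagonal forms of rank at least two. -/
theorem rep_diag (hK : ∃ x : K, star x ≠ x) {ι : Type} [Fintype ι] (hι : 2 ≤ Fintype.card ι)
    {g : ι → K} (hg : ∀ i, star (g i) = g i) (h0 : ∀ i, g i ≠ 0) {a : K} (ha : star a = a)
    (hw : ∀ w : K →+* ℂ, Cp w → ∃ i, 0 < (w (g i)).re * (w a).re) :
    ∃ x : ι → K, ∑ i, g i * x i * star (x i) = a := by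
  classical
  obtain ⟨x, hx, h⟩ := iso_diag hK (ι := Option ι) (by rw [Fintype.card_option]; omega)
    (g := fun o => o.elim (-a) g) (by
      rintro (_ | i)
      · exact (star_neg a).trans (congrArg _ ha)
      · exact hg i) fun w hw' => by
      obtain ⟨i, hi⟩ := hw w hw'
      refine ⟨some i, none, ?_⟩
      change (w (g i)).re * (w (-a)).re < 0
      rw [map_neg, Complex.neg_re]
      linarith
  rw [Fintype.sum_option] at h
  change -a * x none * star (x none) + ∑ i, g i * x (some i) * star (x (some i)) = 0 at h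
  by_cases ht : x none = 0
  · obtain ⟨j, hj⟩ : ∃ j, x (some j) ≠ 0 := by
      by_contra hc
      push Not at hc
      apply hx
      funext o
      rcases o with _ | j
      exacts [ht, hc j]
    rw [ht, mul_zero, zero_mul, zero_add] at h
    obtain ⟨c, hc⟩ : ∃ c, c * (g j * x (some j)) = (a - g j) / 2 :=
      ⟨_, div_mul_cancel₀ _ (mul_ne_zero (h0 j) hj)⟩
    have hc' := congrArg star hc
    rw [star_mul', star_mul', hg, star_div₀, star_sub, ha, hg, star_ofNat] at hc'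
    refine ⟨fun i => c * x (some i) + (Pi.single j 1 : ι → K) i, ?_⟩
    have e : ∀ i, g i * (c * x (some i) + (Pi.single j 1 : ι → K) i) *
        star (c * x (some i) + (Pi.single j 1 : ι → K) i) =
        c * star c * (g i * x (some i) * star (x (some i))) + (Pi.single j a : ι → K) i := by
      intro i
      by_cases hi : i = j
      · subst hi
        rw [Pi.single_eq_same, Pi.single_eq_same, star_add, star_mul', star_one]
        linear_combination hc + hc'
      · rw [Pi.single_eq_of_ne hi, Pi.single_eq_of_ne hi, add_zero, star_mul']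
        ring
    rw [Finset.sum_congr rfl fun i _ => e i, Finset.sum_add_distrib, ← Finset.mul_sum, h,
      Finset.sum_pi_single']
    simp
  · refine ⟨fun i => x (some i) / x none, ?_⟩
    have hs : star (x none) ≠ 0 := star_ne_zero.mpr ht
    have e : ∀ i, g i * (x (some i) / x none) * star (x (some i) / x none) =
        (x none * star (x none))⁻¹ * (g i * x (some i) * star (x (some i))) := by
      intro i
      rw [star_div₀]
      field_simp
    rw [Finset.sum_congr rfl fun i _ => e i, ← Finset.mul_sum, inv_mul_eq_iff_eq_mul₀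
      (mul_ne_zero ht hs)]
    linear_combination h

theorem sign1 {g0 g1 g2 a0 a1 a2 : ℝ} (h0 : g0 ≠ 0) (h1 : g1 ≠ 0) (h2 : g2 ≠ 0) (k0 : a0 ≠ 0)
    (h : (0 < g0 * g1 ∧ 0 < g1 * g2) ↔ (0 < a0 * a1 ∧ 0 < a1 * a2))
    (hp : 0 < g0 * g1 * g2 * (a0 * a1 * a2)) : 0 < g0 * a0 ∨ 0 < g1 * a0 ∨ 0 < g2 * a0 := by
  by_contra hc
  push Not at hc
  have e0 := lt_of_le_of_ne hc.1 (mul_ne_zero h0 k0)
  have e1 := lt_of_le_of_ne hc.2.1 (mul_ne_zero h1 k0)
  have e2 := lt_of_le_of_ne hc.2.2 (mul_ne_zero h2 k0)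
  have s := mul_self_pos.mpr k0
  have p1 : 0 < g0 * g1 := by
    refine (mul_pos_iff_of_pos_right s).mp ?_
    have := mul_pos_of_neg_of_neg e0 e1
    linarith
  have p2 : 0 < g1 * g2 := by
    refine (mul_pos_iff_of_pos_right s).mp ?_
    have := mul_pos_of_neg_of_neg e1 e2
    linarith
  have := mul_neg_of_neg_of_pos e0 (mul_pos p2 (h.mp ⟨p1, p2⟩).2)
  linarith

theorem sign2 {b c a0 a1 a2 : ℝ} (h1 : b ≠ 0) (h2 : c ≠ 0) (k0 : a0 ≠ 0) (k1 : a1 ≠ 0)
    (h : (0 < a0 * b ∧ 0 < b * c) ↔ (0 < a0 * a1 ∧ 0 < a1 * a2))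
    (hp : 0 < a0 * b * c * (a0 * a1 * a2)) : 0 < b * a1 ∨ 0 < c * a1 := by
  by_contra hc
  push Not at hc
  have e1 := lt_of_le_of_ne hc.1 (mul_ne_zero h1 k1)
  have e2 := lt_of_le_of_ne hc.2 (mul_ne_zero h2 k1)
  have s := mul_self_pos.mpr k1
  have s0 := mul_self_pos.mpr k0
  have p1 : 0 < b * c := by
    refine (mul_pos_iff_of_pos_right s).mp ?_
    have := mul_pos_of_neg_of_neg e1 e2
    linarith
  have p2 : 0 < a1 * a2 := by
    refine (mul_pos_iff_of_pos_right (mul_pos p1 s0)).mp ?_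
    linarith
  rcases lt_or_gt_of_ne (mul_ne_zero k0 k1) with h3 | h3
  · have p3 : 0 < a0 * b := by
      refine (mul_pos_iff_of_pos_right s).mp ?_
      have := mul_pos_of_neg_of_neg h3 e1
      linarith
    exact absurd (h.mp ⟨p3, p1⟩).1 (not_lt.mpr h3.le)
  · have := mul_neg_of_neg_of_pos e1 (mul_pos h3 (h.mpr ⟨h3, p2⟩).1)
    have h4 := mul_pos (mul_pos s s0) (mul_self_pos.mpr h1)
    linarith

/-- Landherr's theorem for diagonal ternary forms. -/
theorem cg_diag (hK : ∃ x : K, star x ≠ x) {g a : Fin 3 → K} (hg : ∀ i, star (g i) = g i)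
    (g0 : ∀ i, g i ≠ 0) (ha : ∀ i, star (a i) = a i) (a0 : ∀ i, a i ≠ 0) {m : K}
    (hm : a 0 * a 1 * a 2 = m * star m * (g 0 * g 1 * g 2))
    (hw : ∀ w : K →+* ℂ, Cp w → (Def w (diagonal g) ↔ Def w (diagonal a))) :
    Cg (diagonal g) (diagonal a) := by
  have hm0 : m ≠ 0 := by
    rintro rfl
    rw [zero_mul, zero_mul] at hm
    exact mul_ne_zero (mul_ne_zero (a0 0) (a0 1)) (a0 2) hm
  have sg : ∀ {w : K →+* ℂ}, Cp w → ∀ {x y z x' y' z' n : K}, star x = x → star y = y →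
      star z = z → star x' = x' → star y' = y' → x ≠ 0 → y ≠ 0 → z ≠ 0 → n ≠ 0 →
      x' * y' * z' = n * star n * (x * y * z) →
      0 < (w x).re * (w y).re * (w z).re * ((w x').re * (w y').re * (w z').re) := by
    intro w hw x y z x' y' z' n h1 h2 h3 h4 h5 k1 k2 k3 k4 e
    have e1 : (w (x' * y' * z')).re = (w x').re * (w y').re * (w z').re := by
      rw [mul_assoc, hw.re_mul h4, hw.re_mul h5, mul_assoc]
    have e2 : (w (x * y * z)).re = (w x).re * (w y).re * (w z).re := by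
      rw [mul_assoc, hw.re_mul h1, hw.re_mul h2, mul_assoc]
    have e3 := hw.re_ne (a := x * y * z) (by rw [star_mul', star_mul', h1, h2, h3])
      (mul_ne_zero (mul_ne_zero k1 k2) k3)
    rw [← e1, ← e2, e, hw.re_mul (a := n * star n) (by rw [star_mul', star_star, mul_comm])]
    have := mul_pos (hw.norm_pos k4) (mul_self_pos.mpr e3)
    linarith
  obtain ⟨x, hx⟩ := rep_diag hK (by simp) hg g0 (ha 0) fun w hw' => by
    have h1 := hw w hw'
    rw [hw'.def_diag hg g0, hw'.def_diag ha a0] at h1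
    rcases sign1 (hw'.re_ne (hg 0) (g0 0)) (hw'.re_ne (hg 1) (g0 1)) (hw'.re_ne (hg 2) (g0 2))
      (hw'.re_ne (ha 0) (a0 0)) h1 (sg hw' (hg 0) (hg 1) (hg 2) (ha 0) (ha 1) (g0 0) (g0 1) (g0 2)
        hm0 hm) with h | h | h
    exacts [⟨_, h⟩, ⟨_, h⟩, ⟨_, h⟩]
  obtain ⟨b, c, hb, hc, b0, c0, h1⟩ := cg_first hg g0 hx (a0 0)
  have hd : (diagonal ![a 0, b, c]).det = a 0 * b * c := by
    rw [Matrix.det_diagonal, Fin.prod_univ_three]
    rfl
  have hd0 : (diagonal ![a 0, b, c]).det ≠ 0 := by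
    rw [hd]
    exact mul_ne_zero (mul_ne_zero (a0 0) b0) c0
  obtain ⟨n, hn0, hn⟩ : ∃ n, n ≠ 0 ∧ a 0 * a 1 * a 2 = n * star n * (a 0 * b * c) := by
    obtain ⟨P, hP⟩ := h1
    have h2 := det_cg P (diagonal g)
    have h3 := det_ne_of_cg hP hd0
    have h4 := star_ne_zero.mpr h3
    rw [hP, hd, Matrix.det_diagonal, Fin.prod_univ_three] at h2
    refine ⟨m / P.det, div_ne_zero hm0 h3, ?_⟩
    rw [hm, h2, star_div₀]
    field_simp
  have hs : ∀ i : Fin 3, star (![a 0, b, c] i) = ![a 0, b, c] i := by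
    intro i
    fin_cases i
    exacts [ha 0, hb, hc]
  have hs0 : ∀ i : Fin 3, ![a 0, b, c] i ≠ 0 := by
    intro i
    fin_cases i
    exacts [a0 0, b0, c0]
  obtain ⟨y, hy⟩ := rep_diag hK (g := ![b, c]) (by simp)
    (fun i => by fin_cases i; exacts [hb, hc]) (fun i => by fin_cases i; exacts [b0, c0]) (ha 1)
    fun w hw' => by
    have h2 := (h1.def_iff hd0 hw').trans (hw w hw')
    rw [hw'.def_diag hs hs0, hw'.def_diag ha a0] at h2
    rcases sign2 (hw'.re_ne hb b0) (hw'.re_ne hc c0) (hw'.re_ne (ha 0) (a0 0))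
      (hw'.re_ne (ha 1) (a0 1)) h2 (sg hw' (ha 0) hb hc (ha 0) (ha 1) (a0 0) b0 c0 hn0 hn)
      with h | h
    exacts [⟨0, h⟩, ⟨1, h⟩]
  rw [Fin.sum_univ_two] at hy
  have h2 := cg_two (a := a 0) (t := n / a 1) hb hc hy
  have e : ![a 0, a 1, n / a 1 * star (n / a 1) * (b * c * a 1)] = a := by
    have h3 : n / a 1 * star (n / a 1) * (b * c * a 1) = a 2 := by
      have := a0 1
      rw [star_div₀, ha]
      field_simp
      apply mul_left_cancel₀ (a0 0)
      linear_combination -hn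
    rw [h3]
    funext i
    fin_cases i <;> rfl
  rw [e] at h2
  exact h1.trans h2

/-- Indefinite ternary forms are isotropic. -/
theorem exists_iso (hK : ∃ x : K, star x ≠ x) {H : Matrix (Fin 3) (Fin 3) K} (hH : Hᴴ = H)
    (hw : ∀ w : K →+* ℂ, Cp w → ¬ Def w H) : ∃ v : Fin 3 → K, v ≠ 0 ∧ v ⬝ᵥ (H *ᵥ star v) = 0 := by
  by_cases hd : H.det = 0
  · obtain ⟨v, hv, h⟩ := Matrix.exists_vecMul_eq_zero_iff.mpr hd
    exact ⟨v, hv, by rw [Matrix.dotProduct_mulVec, h, zero_dotProduct]⟩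
  obtain ⟨g, hg, g0, h⟩ := exists_diag hK hH hd
  have hd0 : (diagonal g).det ≠ 0 := by
    rw [Matrix.det_diagonal]
    exact Finset.prod_ne_zero_iff.mpr fun i _ => g0 i
  obtain ⟨x, hx, hx0⟩ := iso_diag hK (by simp) hg fun w hw' => by
    have h1 := hw w hw'
    rw [← h.def_iff hd0 hw', hw'.def_diag hg g0, not_and_or, not_lt, not_lt] at h1
    have h2 := fun i => hw'.re_ne (hg i) (g0 i)
    rcases h1 with h1 | h1
    · exact ⟨_, _, lt_of_le_of_ne h1 (mul_ne_zero (h2 _) (h2 _))⟩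
    · exact ⟨_, _, lt_of_le_of_ne h1 (mul_ne_zero (h2 _) (h2 _))⟩
  obtain ⟨P, hP⟩ := h
  refine ⟨x ᵥ* P, fun h0 => hx (Matrix.eq_zero_of_vecMul_eq_zero (det_ne_of_cg hP hd0) h0), ?_⟩
  rw [Matrix.star_vecMul, ← Matrix.dotProduct_mulVec, Matrix.mulVec_mulVec, Matrix.mulVec_mulVec,
    hP, ← hx0]
  refine Finset.sum_congr rfl fun i _ => ?_
  rw [Matrix.mulVec_diagonal, Pi.star_apply]
  ring

/-- Landherr's theorem for ternary forms, up to scalars. -/
theorem similar (hK : ∃ x : K, star x ≠ x) {H H' : Matrix (Fin 3) (Fin 3) K} (hH : Hᴴ = H)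
    (hH' : H'ᴴ = H') (hd : H.det ≠ 0) (hd' : H'.det ≠ 0)
    (hw : ∀ w : K →+* ℂ, Cp w → (Def w H ↔ Def w H')) : ∃ μ : K, μ ≠ 0 ∧ Cg H (μ • H') := by
  obtain ⟨g, hg, g0, h⟩ := exists_diag hK hH hd
  obtain ⟨a, ha, a0, h'⟩ := exists_diag hK hH' hd'
  have dg : ∀ {g : Fin 3 → K}, (∀ i, g i ≠ 0) → (diagonal g).det ≠ 0 := fun g0 => by
    rw [Matrix.det_diagonal]
    exact Finset.prod_ne_zero_iff.mpr fun i _ => g0 i
  obtain ⟨μ, hμ⟩ : ∃ μ, μ = g 0 * g 1 * g 2 * (a 0 * a 1 * a 2) := ⟨_, rfl⟩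
  have sμ : star μ = μ := by simp only [hμ, star_mul', hg, ha]
  have μ0 : μ ≠ 0 := by
    rw [hμ]
    exact mul_ne_zero (mul_ne_zero (mul_ne_zero (g0 _) (g0 _)) (g0 _))
      (mul_ne_zero (mul_ne_zero (a0 _) (a0 _)) (a0 _))
  have h1 : Cg (diagonal g) (diagonal (μ • a)) := by
    refine cg_diag hK hg g0 (fun i => by rw [Pi.smul_apply, smul_eq_mul, star_mul', sμ, ha])
      (fun i => mul_ne_zero μ0 (a0 i)) (m := μ * (a 0 * a 1 * a 2)) ?_ fun w hw' => ?_
    · simp only [Pi.smul_apply, smul_eq_mul, star_mul', sμ, ha]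
      linear_combination (μ ^ 2 * (a 0 * a 1 * a 2)) * hμ
    · rw [Matrix.diagonal_smul, def_smul' μ0, h.def_iff (dg g0) hw', h'.def_iff (dg a0) hw']
      exact hw w hw'
  rw [Matrix.diagonal_smul] at h1
  exact ⟨μ, μ0, (h.trans h1).trans ((h'.symm (dg a0)).smul μ)⟩

end number

end Vale.Agent.P011N.Cl.LH
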